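import Vale.Agent.P223O.Gain
import Vale.Agent.P223B.Defs

/-!
# P223O: the local step of the amplification
-/

open Filter Topology Set
open scoped ContDiff
open Vale.Agent.P366M Vale.Agent.P366M.Gr Vale.Agent.P366M.Y.C
open Vale.Agent.P210G Vale.Agent.P210T Vale.Agent.P210F.Al

noncomputable section

namespace Vale.Agent.P223O

variable {n : ℕ} {M : Type} [Mf0 n M] {g : Fld n M} {w w' : M → ℝ} {x : M}

theorem a2_congr (e : w' =ᶠ[𝓝 x] w) : a2 g w' x = a2 g w x :=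
  normSq_of_eq (gb_congr e).self_of_nhds (by
    simp only [hess_congr e, (ww_congr (g := g) e).self_of_nhds])

theorem lw_congr (e : w' =ᶠ[𝓝 x] w) : lw g w' x = lw g w x := by
  rw [lw, lw, (ww_congr e).self_of_nhds]

theorem lw_le (hg : Met g) (w : M → ℝ) (x : M) : lw g w x ≤ gn g w x := by
  rw [lw]
  linarith [Real.log_le_sub_one_of_pos (w_pos hg w x), w_le hg w x]

theorem xf_bd {R μ t : ℝ} (hμ : 0 < μ) (t0 : 0 ≤ t) (t1 : t ≤ R - μ / 2) :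
    1 ≤ xf R t ∧ xf R t ≤ 2 * R / μ := by
  refine ⟨xf_ge t0 (by linarith), (xf_mono (by linarith) t1 (by linarith)).trans_eq ?_⟩
  rw [xf, sub_sub_cancel]; field_simp

/-- the ramp of the spring -/
theorem ramp : ∃ c > (0 : ℝ), ∀ {n : ℕ} {M : Type} [Mf0 n M] {g : Fld n M} {ϖ : M → ℝ} {τ : ℝ},
    Met g → Smooth ϖ → 0 < τ → (∀ x, 0 < ϖ x → ϖ x < 1 → ip g ϖ ϖ x ≤ c * τ) → ∀ A₀ : ℝ,
    ∃ (A : M → ℝ) (A₁ : ℝ), Smooth A ∧ A₀ ≤ A₁ ∧ ∀ x, 0 ≤ A x ∧ (ϖ x ≤ 1 / 4 → A x = 0) ∧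
      (1 / 2 ≤ ϖ x → A x = A₁) ∧ ip g A A x ≤ (τ + A x) ^ 3 / 32 := by
  obtain ⟨C, C0, hC⟩ := st_bd
  refine ⟨1 / (2048 * C ^ 2), by positivity, fun {n M _ g ϖ τ} hg hϖ hτ h A₀ => ?_⟩
  obtain ⟨A, A₁, a1, a2, a3⟩ := spring hg hτ (σ := fun x => Real.smoothTransition (4 * ϖ x - 1))
    (Real.smoothTransition.contDiff.compM (CD.sub (CD.mul cd_const hϖ) cd_const))
    (fun x => ⟨Real.smoothTransition.nonneg _, Real.smoothTransition.le_one _⟩) (fun x => by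
      have k : HasDerivAt (fun t => Real.smoothTransition (4 * t - 1))
          (deriv Real.smoothTransition (4 * ϖ x - 1) * (4 * 1)) (ϖ x) :=
        ((Real.smoothTransition.contDiff (n := 1)).differentiable one_ne_zero _).hasDerivAt.comp
          (ϖ x) (((hasDerivAt_id' (ϖ x)).const_mul 4).sub_const 1)
      rw [ip_comp k k (hϖ.diff x) (hϖ.diff x)]
      by_cases hx : 4 * ϖ x - 1 ∈ Icc (0 : ℝ) 1
      · have b := abs_le.1 (hC (4 * ϖ x - 1)).1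
        have b2 := sq_le_sq' b.1 b.2
        calc _ = 16 * deriv Real.smoothTransition (4 * ϖ x - 1) ^ 2 * ip g ϖ ϖ x := by ring
          _ ≤ 16 * C ^ 2 * (1 / (2048 * C ^ 2) * τ) := mul_le_mul (by linarith)
            (h x (by linarith [hx.1]) (by linarith [hx.2])) (hg.ip_nonneg ϖ x) (by positivity)
          _ = _ := by field_simp; ring
      · rw [(hC _).2 hx]; simp; positivity) A₀
  exact ⟨A, A₁, a1, a2, fun x => ⟨(a3 x).1,
    fun k => (a3 x).2.1 (Real.smoothTransition.zero_of_nonpos (by linarith)),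
    fun k => (a3 x).2.2.1 (Real.smoothTransition.one_of_one_le (by linarith)), (a3 x).2.2.2⟩⟩

/-- **LOC** -/
theorem loc (hn : 2 ≤ n) : P223B.LOC n := by
  obtain ⟨c, c0, hc⟩ := ramp
  refine ⟨c, c0, fun X _ g v ρ β ϖ B E q D τ R μ θ p e hg cv hρ hβ hϖ hD hτ hμ θ0 θ1 hp he hR hρ'
    hD' hβ' dϖ hE => ?_⟩
  obtain ⟨x₀⟩ : Nonempty X := inferInstance
  have R0 : 0 < R := by linarith [(hρ' x₀).1, (hρ' x₀).2]
  have cϖ := hϖ.cont
  have lo : ∀ {x t}, ϖ x < t → ∀ᶠ y in 𝓝 x, ϖ y < t := fun h =>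
    cϖ.continuousAt.eventually (gt_mem_nhds h)
  have hi : ∀ {x t}, t < ϖ x → ∀ᶠ y in 𝓝 x, t < ϖ y := fun h =>
    cϖ.continuousAt.eventually (lt_mem_nhds h)
  obtain ⟨κ₀, κ1, κ2, κ3, κ4⟩ := cutoff hϖ (1 / 2) (d := 1 / 5) (by norm_num)
  obtain ⟨χ, χ1, χ2, χ3, χ4⟩ := cutoff hϖ (7 / 10) (d := 1 / 5) (by norm_num)
  have sκ : Smooth fun x => 1 - κ₀ x := CD.sub cd_const κ1
  have cT : IsCompact (ϖ ⁻¹' Icc (11 / 20) (17 / 20)) :=
    hD.of_isClosed_subset (isClosed_Icc.preimage cϖ) fun x hx => hD' x (by linarith [hx.2])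
  obtain ⟨y₀, hy₀⟩ : ∃ y₀, y₀ = 2 * R / μ := ⟨_, rfl⟩
  have y0 : 0 < y₀ := by rw [hy₀]; positivity
  have p0 : 0 < (τ * y₀ ^ 2) ^ 2 + 2 * τ + 1 := by positivity
  obtain ⟨ε, ε0, ε1, ε2, ε3⟩ : ∃ ε > (0 : ℝ), ε ≤ 1 ∧ ε ≤ μ / 2 ∧
      ε * ((τ * y₀ ^ 2) ^ 2 + 2 * τ + 1) ≤ e :=
    ⟨min (min 1 (μ / 2)) (e / _), by positivity, (min_le_left _ _).trans (min_le_left _ _),
      (min_le_left _ _).trans (min_le_right _ _), (le_div_iff₀ p0).1 (min_le_right _ _)⟩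
  have yb : ∀ x t, |t| ≤ ε → 1 ≤ xf R (ρ x + t ^ 2) ∧ xf R (ρ x + t ^ 2) ≤ y₀ := fun x t ht =>
    hy₀ ▸ xf_bd hμ (add_nonneg (hρ' x).1 (sq_nonneg _)) (by
      nlinarith [(hρ' x).2, sq_abs t, abs_nonneg t])
  obtain ⟨δ, δ0, δ1, hδ⟩ := tailA hg cv χ1 sκ χ2 (fun x => ⟨by linarith [(κ2 x).2],
    by linarith [(κ2 x).1]⟩) cT ε0
  obtain ⟨Cρ, Cρ0, hCρ⟩ := P210Y.bd_cont hD (hg.cont_gn hρ.one)
  obtain ⟨A₀, -, hA₀⟩ := decayX hg cv cT (isOpen_Ioo.preimage cϖ) (O := ϖ ⁻¹' Ioo (1 / 2) 1)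
    (fun x hx => ⟨by linarith [hx.1], by linarith [hx.2]⟩)
    (τ * y₀ ^ 2 + 2 * τ * y₀ ^ 3 / R * Cρ) ε0 δ0
  obtain ⟨A, A₁, sA, A1, hA⟩ := hc hg hϖ hτ dϖ A₀
  obtain ⟨w, μ', sw, μ0, hw⟩ := exD (R := R) hn hg cv hD hτ hμ hρ hβ sA (fun x => (hρ' x).1)
    (fun x => (hρ' x).2) fun x => (hA x).1
  have eH : ∀ x, ϖ x < 1 → hv g v w =ᶠ[𝓝 x]
      fun y => (τ * xf R (ρ y + (w y - β y) ^ 2) ^ 2 + A y) * (w y - β y) := fun x hx =>
    (lo hx).mono fun y hy => (hw y (hD' y hy)).2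
  have lt : ∀ x, ϖ x < 1 → ρ x + (w x - β x) ^ 2 < R := fun x hx => by
    linarith [(hw x (hD' x hx)).1]
  have β0 : ∀ x, 0 < ϖ x → β =ᶠ[𝓝 x] fun _ => 0 := fun x hx => (hi hx).mono hβ'
  have dec := hA₀ A₁ A1 w (fun x => τ * xf R (ρ x + w x ^ 2) ^ 2) sw fun x hx => by
    have x0 : 0 < ϖ x := by linarith [hx.1]
    have e1 := dn_H (g := g) R0 hρ hβ sA sw (lt x hx.2) (eH x hx.2)
    have e2 := (eH x hx.2).self_of_nhds
    rw [dn_congr .rfl (β0 x x0), dn_congr (v := A) (v' := fun _ => A₁) .rfl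
      ((hi hx.1).mono fun y hy => (hA y).2.2.1 hy.le)] at e1
    simp only [dn, ip_const_right, zero_div, hβ' x x0, sub_zero, add_zero,
      (hA x).2.2.1 hx.1.le] at e1 e2
    refine ⟨e2, by positivity, fun k => ?_⟩
    obtain ⟨b1, b2⟩ := yb x _ k
    have b0 := zero_le_one.trans b1
    have b3 : 2 * τ * xf R (ρ x + w x ^ 2) ^ 3 / R ≤ 2 * τ * y₀ ^ 3 / R := by gcongr
    have b4 : 0 ≤ 2 * τ * xf R (ρ x + w x ^ 2) ^ 3 / R := by positivity
    have b5 : |w x * (2 * τ * xf R (ρ x + w x ^ 2) ^ 3 / R * dn g w ρ x)| ≤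
        2 * τ * y₀ ^ 3 / R * Cρ := by
      rw [abs_mul, abs_mul, abs_of_nonneg b4]
      exact (mul_le_of_le_one_left (by positivity) (k.trans ε1)).trans (mul_le_mul b3
        ((abs_dn_le hg _ _ x).trans ((le_abs_self _).trans (hCρ x (hD' x hx.2)))) (abs_nonneg _)
        (by positivity))
    have b6 := (sg_nonneg hg w x).trans (sg_le_dn hg w x)
    have b7 : 0 ≤ 2 * τ * y₀ ^ 3 / R * Cρ := by positivity
    have b8 : τ * xf R (ρ x + w x ^ 2) ^ 2 ≤ τ * y₀ ^ 2 := by gcongr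
    refine ⟨by linarith, ?_⟩
    simp only [dn] at b5 b6 ⊢
    rw [e1]
    linarith only [(abs_le.1 b5).1, mul_nonneg (mul_nonneg b4 (sq_nonneg (w x))) b6,
      mul_nonneg (mul_nonneg hτ.le (sq_nonneg (xf R (ρ x + w x ^ 2)))) b6,
      mul_nonneg hτ.le (sq_nonneg y₀)]
  have sw' : Smooth fun y => χ y * w y := CD.mul χ1 sw
  have one : ∀ x, ϖ x < 3 / 4 → (fun y => χ y * w y) =ᶠ[𝓝 x] w := fun x hx =>
    (lo hx).mono fun y hy => by simp only [χ3 y (by linarith), one_mul]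
  have zer : ∀ x, 17 / 20 < ϖ x → (fun y => χ y * w y) =ᶠ[𝓝 x] fun _ => 0 := fun x hx =>
    (hi hx).mono fun y hy => by simp only [χ4 y (by linarith), zero_mul]
  have ga := fun x hx => gain_x hg cv hτ hρ hβ sA sw (hρ' x).1 (lt x hx) (hA x).1 (hE x hx).2.2.2.1
    (hE x hx).2.2.1 (hE x hx).1 (hE x hx).2.2.2.2 hp (hE x hx).2.1 θ0 θ1 hR (hA x).2.2.2
    ((lt_or_ge (ϖ x) (1 / 4)).imp (fun k => (lo k).mono fun y hy => (hA y).2.1 hy.le)
      fun k => β0 x (by linarith)) (eH x hx)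
  refine ⟨_, kv g v (fun x => 1 - κ₀ x) fun y => χ y * w y, min μ μ', sw', cc_kv hg cv sκ sw',
    lt_min hμ μ0, fun x => ?_, fun x hx => ⟨(zer x (by linarith)).self_of_nhds,
      fun i => (kv_const (zer x (by linarith)) i).self_of_nhds⟩, fun x hx => ?_⟩
  · rcases lt_or_ge (ϖ x) 1 with h | h
    · refine le_trans (add_le_add_right ?_ _) ((hw x (hD' x h)).1.trans
        (by linarith [min_le_right μ μ']))
      rcases le_or_gt (ϖ x) 0 with k | k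
      · rw [χ3 x (by linarith), one_mul]
      · rw [hβ' x k, sub_zero, sub_zero, mul_pow]
        exact mul_le_of_le_one_left (sq_nonneg _) (pow_le_one₀ (χ2 x).1 (χ2 x).2)
    · rw [χ4 x (by linarith), hβ' x (by linarith)]
      linarith [(hρ' x).2, min_le_left μ μ']
  have g0 := ga x hx
  have a0 := a2_nonneg hg sw x
  have n1 : ∀ y : ℝ, 0 ≤ (1 + 2 * θ) * (τ * y ^ 2) * B x := fun y =>
    mul_nonneg (by positivity) ((hg.ip_nonneg β x).trans (hE x hx).2.2.2.1)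
  have n2 : ∀ y : ℝ, 0 ≤ 128 * y ^ 2 * q x / R := fun y => by have := (hE x hx).2.1; positivity
  rcases lt_or_ge (ϖ x) (11 / 20) with h1 | h1
  · have e3 := one x (by linarith)
    rw [Rv_of_ev (gb_congr e3) fun i => (kv_zero ((lo h1).mono fun y hy => by
      simp only [κ3 y (by linarith), sub_self]) i).trans (vg_congr e3 i), a2_congr e3, lw_congr e3,
      show χ x * w x = w x from e3.self_of_nhds]
    linarith
  rcases lt_or_ge (17 / 20) (ϖ x) with h2 | h2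
  · have e3 := zer x h2
    rw [Rv_of_ev (gb_const e3) (kv_const e3), a2_congr e3, lw_congr e3,
      show χ x * w x = 0 from e3.self_of_nhds, hβ' x (by linarith)]
    have z1 : a2 g (fun _ => (0 : ℝ)) x = 0 := by simp [a2, normSq, hess_const]
    have z2 : lw g (fun _ => (0 : ℝ)) x = 0 := by simp [lw, ww, ip_const_left]
    rw [z1, z2]
    generalize xf R _ = y
    linarith only [n1 y, n2 y, he]
  obtain ⟨d1, d2, d3⟩ := dec x ⟨h1, h2⟩
  obtain ⟨t1, t2⟩ := hδ x ⟨h1, h2⟩ ((lt_or_ge (ϖ x) (3 / 4)).imp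
    (fun k => (lo k).mono fun y hy => χ3 y (by linarith))
    fun k => (hi (t := 13 / 20) (by linarith)).mono fun y hy => by
      simp only [κ4 y (by linarith), sub_zero]) w _ 0 sw sw' (.of_forall fun y => by simp)
    (by simpa using d1) d2 d3
  have z1 : |χ x * w x - β x| ≤ ε := by
    rw [hβ' x (by linarith), sub_zero, abs_mul, abs_of_nonneg (χ2 x).1]
    exact (mul_le_of_le_one_left (abs_nonneg _) (χ2 x).2).trans (d1.trans δ1)
  obtain ⟨b1, b2⟩ := yb x _ z1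
  have z2 : (τ * xf R (ρ x + (χ x * w x - β x) ^ 2) ^ 2) ^ 2 * (χ x * w x - β x) ^ 2 ≤
      (τ * y₀ ^ 2) ^ 2 * ε := by
    have := zero_le_one.trans b1
    refine mul_le_mul (by gcongr) ?_ (sq_nonneg _) (sq_nonneg _)
    nlinarith [sq_abs (χ x * w x - β x), abs_nonneg (χ x * w x - β x)]
  have z3 := mul_le_mul_of_nonneg_left ((lw_le hg _ x).trans t1) hτ.le
  have z4 := n1 (xf R (ρ x + (χ x * w x - β x) ^ 2))
  have z5 := n2 (xf R (ρ x + (χ x * w x - β x) ^ 2))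
  have z6 : 0 ≤ (τ * y₀ ^ 2) ^ 2 * ε := by positivity
  refine le_trans ?_ t2
  rcases lt_or_ge (ϖ x) (3 / 4) with h3 | h3
  · have e3 := one x h3
    rw [← a2_congr e3, ← lw_congr e3, ← show χ x * w x = w x from e3.self_of_nhds] at g0
    rw [← a2_congr e3] at a0
    have z7 : 0 ≤ τ * lw g (fun y => χ y * w y) x :=
      mul_nonneg hτ.le (Real.log_nonneg (one_le_w hg _ x))
    have z8 := mul_nonneg (sq_nonneg (τ * xf R (ρ x + (χ x * w x - β x) ^ 2) ^ 2))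
      (sq_nonneg (χ x * w x - β x))
    have z9 := mul_le_mul_of_nonneg_left g0 (κ2 x).1
    have z10 := mul_le_of_le_one_left (add_nonneg z4 z5) (κ2 x).2
    have z11 := mul_nonneg (κ2 x).1 (add_nonneg (add_nonneg z8 a0) (add_nonneg z7 z7))
    linarith only [z2, z3, z6, z9, z10, z11, ε3, mul_nonneg (κ2 x).1 z7]
  · rw [κ4 x (by linarith)]
    linarith only [z2, z3, z4, z5, z6, ε3]

end Vale.Agent.P223O
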