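import Vale.Agent.P210T.TailK
import Vale.Agent.P210Y.Dec2

/-!
# P223O: the tail that keeps the second fundamental form; decay for a stiff spring with a variable
coefficient
-/

open Filter Topology Set
open scoped ContDiff
open Vale.Agent.P366M Vale.Agent.P366M.An Vale.Agent.P366M.Gr Vale.Agent.P366M.Y.C
open Vale.Agent.P366M.Y.C.GbH Vale.Agent.P210G Vale.Agent.P210Y Vale.Agent.P210T

noncomputable section

namespace Vale.Agent.P223O

variable {n : ℕ} {M : Type} [Mf0 n M] {g : Fld n M} {v : Fin n → M → ℝ} {w w' χ κ : M → ℝ} {x : M}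
  {K O T : Set M}

/-- **the tail with a second cutoff `κ`**, with half of the second fundamental form -/
theorem tailA (hg : Met g) (hv' : CC ∞ v) (hχ : Smooth χ) (hκ : Smooth κ)
    (k : ∀ x, 0 ≤ χ x ∧ χ x ≤ 1) (k' : ∀ x, 0 ≤ κ x ∧ κ x ≤ 1) (hT : IsCompact T) {ε : ℝ}
    (hε : 0 < ε) : ∃ δ > 0, δ ≤ ε ∧ ∀ x ∈ T, ((χ =ᶠ[𝓝 x] fun _ => 1) ∨ κ =ᶠ[𝓝 x] fun _ => 1) →
    ∀ (w w' : M → ℝ) (c : ℝ), Smooth w → Smooth w' →
      (w' =ᶠ[𝓝 x] fun y => c + χ y * (w y - c)) → |w x - c| ≤ δ → gn g w x ≤ δ →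
      |hv g v w x| ≤ δ → gn g w' x ≤ ε ∧ κ x * (Rv g v x + a2 g w' x / 2) +
        (1 - κ x) * Rv (gb g 1 w) (vg g v w) x - ε ≤ Rv (gb g 1 w') (kv g v κ w') x := by
  have c1 : Continuous fun x => gn g χ x + |Lv g v χ x| + √(normSq g (hess g χ) x) + gn g κ x :=
    (((hg.cont_gn hχ.one).add (sm_Lv hg hv' hχ).cont.abs).add
      (hg.sm_normSq (hg.sm_hess hχ)).cont.sqrt).add (hg.cont_gn hκ.one)
  obtain ⟨K, K0, hK⟩ := bd_cont hT c1
  have hK1 : 0 < 1 + K := by positivity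
  obtain ⟨η, η0, η1, η2⟩ : ∃ η > (0 : ℝ), η ≤ 1 / 4 ∧ 100 * η ≤ ε :=
    ⟨min (1 / 4) (ε / 100), by positivity, min_le_left _ _,
      by linarith [min_le_right (1 / 4) (ε / 100)]⟩
  have e1 : η / (1 + K) * (1 + K) = η := div_mul_cancel₀ _ hK1.ne'
  have e2 : η / (1 + K) ≤ η := div_le_self η0.le (by linarith)
  refine ⟨η / (1 + K), by positivity, by linarith, fun x hx hk w w' c hw hw' e d1 d2 hH => ?_⟩
  have b := (le_abs_self _).trans (hK x hx)
  have b1 := gn_nonneg g χ x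
  have b2 := abs_nonneg (Lv g v χ x)
  have b3 := Real.sqrt_nonneg (normSq g (hess g χ) x)
  have b4 := gn_nonneg g κ x
  obtain ⟨h1, h2⟩ := hv_cut_le hg hχ hw hw' (K := K) (B := 1) e (k x).1 (k x).2 (by linarith)
    (by linarith) (by linarith) d1 d2 (by linarith) (by rw [e1]; exact η1)
  rw [e1] at h1 h2
  refine ⟨by linarith, ?_⟩
  have q := gq_gb_le hg h1 h1 η1
  have q0 := gq_nonneg (met_g hg hw') (nv g w') x
  have L0 := (met_g hg hw').ip_nonneg (lw g w') x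
  have a0 := a2_nonneg hg hw' x
  rw [Rv_kv hg hv' hκ hw']
  rcases hk with k1 | k1
  · have e3 : w' =ᶠ[𝓝 x] w := e.trans (k1.mono fun y hy => by simp [hy])
    rw [← Rv_of_ev (gb_congr e3) (vg_congr e3), (hv_congr e3).self_of_nhds]
    have s1 : |dn g w' κ x| ≤ K := (abs_dn_le hg _ _ x).trans (by linarith)
    have s2 : |hv g v w x * dn g w' κ x| ≤ η := by
      rw [abs_mul]
      refine (mul_le_mul hH s1 (abs_nonneg _) (by positivity)).trans ?_
      rw [← e1]; exact mul_le_mul (e1.symm ▸ le_rfl) (by linarith) K0 (by positivity)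
    have s3 : hv g v w x ^ 2 ≤ η := by
      have := abs_le.1 (hH.trans e2)
      nlinarith
    have s4 : κ x * hv g v w x ^ 2 ≤ η := (mul_le_of_le_one_left (sq_nonneg _) (k' x).2).trans s3
    have s5 : (κ x * hv g v w x) ^ 2 * gq (gb g 1 w') (nv g w') (nv g w') x ≤ η := by
      refine (mul_le_of_le_one_right (sq_nonneg _) (by linarith)).trans ?_
      rw [mul_pow]
      exact (mul_le_of_le_one_left (sq_nonneg _) (pow_le_one₀ (k' x).1 (k' x).2)).trans s3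
    linarith [(abs_le.1 s2).2, mul_nonneg (k' x).1 a0, mul_nonneg (k' x).1 L0]
  · rw [dn_congr .rfl k1, k1.self_of_nhds, dn, ip_const_right]
    have s1 : |χ x * hv g v w x| ≤ η := by
      rw [abs_mul, abs_of_nonneg (k x).1]
      exact (mul_le_of_le_one_left (abs_nonneg _) (k x).2).trans (hH.trans e2)
    have s2 : |hv g v w' x| ≤ η * (√(a2 g w' x) + 8) := by
      linarith [abs_sub_abs_le_abs_sub (hv g v w' x) (χ x * hv g v w x)]
    have s3 : hv g v w' x ^ 2 ≤ (η * (√(a2 g w' x) + 8)) ^ 2 :=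
      sq_le_sq' (abs_le.1 s2).1 (abs_le.1 s2).2
    have s4 := Real.sq_sqrt a0
    have s5 : (√(a2 g w' x) + 8) ^ 2 ≤ 2 * a2 g w' x + 128 := by
      nlinarith [sq_nonneg (√(a2 g w' x) - 8)]
    have s6 : η ^ 2 ≤ η / 4 := by nlinarith
    have s7 : hv g v w' x ^ 2 ≤ a2 g w' x / 8 + 32 * η := by
      rw [mul_pow] at s3
      nlinarith [mul_le_mul s6 s5 (sq_nonneg _) (by positivity)]
    have s8 := mul_le_of_le_one_right (sq_nonneg (hv g v w' x)) (q.trans (by linarith))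
    simp only [one_mul, sub_self, zero_mul, zero_div, mul_zero]
    linarith

/-- **DECAY** for `hv w = (T + A) w` with a variable `T ≥ 0` and a large constant `A` -/
theorem decayX (hg : Met g) (hv' : CC ∞ v) (hK : IsCompact K) (hO : IsOpen O) (hKO : K ⊆ O)
    (B : ℝ) {δ₀ ε : ℝ} (h0 : 0 < δ₀) (hε : 0 < ε) : ∃ A₀ > (0 : ℝ), ∀ A, A₀ ≤ A →
      ∀ w T : M → ℝ, Smooth w → (∀ x ∈ O, hv g v w x = (T x + A) * w x ∧ 0 ≤ T x ∧
        (|w x| ≤ δ₀ → T x ≤ B ∧ A * dn g w w x - B ≤ dn g w (hv g v w) x)) →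
      ∀ x ∈ K, |w x| ≤ ε ∧ gn g w x ≤ ε ∧ |hv g v w x| ≤ ε := by
  obtain ⟨K₁, c1, c2, c3⟩ := exists_compact_between hK hO hKO
  obtain ⟨Λ, Λ0, l0⟩ := decay0' hg hv' c1 hO c3
  obtain ⟨C, C0, l1⟩ := decay1 hg hv' hK isOpen_interior c2
  obtain ⟨C', C0', l2⟩ := decay2 hg hv' hK isOpen_interior c2
  have B0 := abs_nonneg B
  have D0 : 0 < 1 + C' + |B| := by positivity
  obtain ⟨δ, δ0, δ1, δ2, δ3⟩ : ∃ δ > (0 : ℝ), δ ≤ 1 ∧ δ ≤ δ₀ ∧ δ * (1 + C' + |B|) ≤ ε :=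
    ⟨min (min 1 δ₀) (ε / (1 + C' + |B|)), by positivity, (min_le_left _ _).trans (min_le_left _ _),
      (min_le_left _ _).trans (min_le_right _ _), (le_div_iff₀ D0).1 (min_le_right _ _)⟩
  obtain ⟨D, hD⟩ : ∃ D, D = C * (1 + (Λ + |B|)) + |B| + Λ + 1 := ⟨_, rfl⟩
  have p1 : 0 ≤ C * (1 + (Λ + |B|)) := by positivity
  have D1 : 0 < D := by linarith
  refine ⟨2 * D / δ ^ 2, by positivity, fun A hA w T hw h x hx => ?_⟩
  have A0 : 0 < A := lt_of_lt_of_le (by positivity) hA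
  rw [div_le_iff₀ (by positivity)] at hA
  have d1 : δ ^ 2 ≤ δ := by nlinarith
  have d2 : δ ≤ ε := by nlinarith
  have k1 : ∀ y ∈ K₁, A * |w y| ≤ Λ := fun y hy => by
    obtain ⟨⟨z, z1, z2, z3⟩, z', z4, z5, z6⟩ := l0 y hy w hw
    rw [(h z z1).1] at z3
    rw [(h z' z4).1] at z6
    rcases le_total 0 (w y) with k | k
    · rw [abs_of_nonneg k]
      nlinarith [mul_nonneg (h z z1).2.1 (k.trans z2), mul_le_mul_of_nonneg_left z2 A0.le]
    · rw [abs_of_nonpos k]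
      nlinarith [mul_nonneg (h z' z4).2.1 (neg_nonneg.2 (z5.trans k)),
        mul_le_mul_of_nonneg_left z5 A0.le]
  have k2 : ∀ y ∈ K₁, |w y| ≤ δ := fun y hy => le_of_mul_le_mul_left (by
    nlinarith [k1 y hy, mul_le_mul_of_nonneg_left d1 A0.le]) A0
  have k3 : ∀ y ∈ K₁, T y ≤ |B| ∧ A * dn g w w y - |B| ≤ dn g w (hv g v w) y := fun y hy => by
    obtain ⟨a1, a2⟩ := (h y (c3 hy)).2.2 ((k2 y hy).trans δ2)
    exact ⟨a1.trans (le_abs_self B), by linarith [le_abs_self B]⟩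
  have x1 := interior_subset (c2 hx)
  refine ⟨(k2 x x1).trans d2, le_trans ?_ d2, ?_⟩
  · obtain ⟨y, y1, y2, -, y4⟩ := l1 x hx w hw
    have y0 := interior_subset y1
    have u0 := iw_pos hg w y
    have u1 := iw_le hg w y
    have s1 : gn g w y * iw g w y ≤ 1 := by
      rw [← div_eq_mul_inv, div_le_one (w_pos hg w y)]; exact gn_le_w hg w y
    have s2 : |hv g v w y| ≤ Λ + |B| := by
      rw [(h y (c3 y0)).1, abs_mul, abs_of_nonneg (add_nonneg (h y (c3 y0)).2.1 A0.le)]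
      nlinarith [k1 y y0, mul_le_mul (k3 y y0).1 ((k2 y y0).trans δ1) (abs_nonneg _) B0]
    have s3 : gn g w y * iw g w y * |hv g v w y| ≤ Λ + |B| :=
      (mul_le_of_le_one_left (abs_nonneg _) s1).trans s2
    have s4 := mul_le_mul_of_nonneg_left (k3 y y0).2 u0.le
    rw [mul_sub, mul_left_comm, iw_dn hg] at s4
    have s5 : A * (1 - iw g w y ^ 2) ≤ D := by
      linarith [mul_le_mul_of_nonneg_left (add_le_add_right s3 1) C0,
        mul_le_of_le_one_left B0 u1]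
    have s6 : 2 * (1 - iw g w y ^ 2) ≤ δ ^ 2 := le_of_mul_le_mul_left (by nlinarith) A0
    have s7 : iw g w y ^ 2 ≤ iw g w x ^ 2 := pow_le_pow_left₀ u0.le y2 2
    have s8 := ip_iw hg w x
    refine (abs_le_of_sq_le_sq' ?_ δ0.le).2
    rw [hg.gn_sq]
    refine le_of_mul_le_mul_right ?_ (pow_pos (iw_pos hg w x) 2)
    nlinarith [sq_nonneg δ]
  · obtain ⟨⟨y, y1, y2, y3⟩, z, z1, z2, z3⟩ := l2 x hx w 0 δ hw δ0 fun y hy => by
      simpa using k2 y (interior_subset hy)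
    have a1 := h x (hKO hx)
    have a2 := h y (c3 (interior_subset y1))
    have a3 := h z (c3 (interior_subset z1))
    have a4 := mul_le_mul (k3 x x1).1 (k2 x x1) (abs_nonneg _) B0
    rw [a2.1] at y3
    rw [a3.1] at z3
    rw [a1.1, abs_mul, abs_of_nonneg (add_nonneg a1.2.1 A0.le)]
    rcases le_total 0 (w x) with k | k
    · rw [abs_of_nonneg k] at a4 ⊢
      nlinarith [mul_nonneg a2.2.1 (k.trans y2), mul_le_mul_of_nonneg_left y2 A0.le]
    · rw [abs_of_nonpos k] at a4 ⊢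
      nlinarith [mul_nonneg a3.2.1 (neg_nonneg.2 (z2.trans k)), mul_le_mul_of_nonneg_left z2 A0.le]

end Vale.Agent.P223O
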