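import Vale.Agent.P210N.Gam

/-!
# P223O: truncation of a potential on an arbitrary manifold
-/

open Filter Topology Set
open scoped ContDiff
open Vale.Agent.P366M Vale.Agent.P210G

noncomputable section

namespace Vale.Agent.P223O

open Classical in
/-- **GAM** for a bounded loss -/
theorem gamB : ∃ C ≥ (1 : ℝ), ∀ {n : ℕ} {X : Type} [Mf0 n X] {g : Fld n X} {θ L : ℝ} {Λ : X → ℝ}
    {J : Type} {U : J → Set X} {V : J → X → ℝ} (j : J) (h : ℝ), 0 < θ → P210S.Pot g θ Λ U V →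
    (∀ x, Λ x ≤ L) → ∃ (h' : ℝ) (O F : Set X), IsOpen O ∧ IsClosed F ∧ F ⊆ O ∧
    (∀ x ∉ F, x ∈ U j ∧ V j x ≤ h') ∧ (∀ x ∈ O, x ∈ U j → h < V j x) ∧ IsClosed (Oᶜ) ∧
    Oᶜ ⊆ U j ∧ ∀ A₀ : ℝ, ∃ A ≥ A₀, ∃ W : X → ℝ, Smooth W ∧ (∀ x ∈ O, W x = A) ∧
      (∀ x ∈ U j, (V j x ≤ h → W x = V j x) ∧ (V j x ≤ h' → V j x ≤ W x)) ∧
      ∀ x, 0 ≤ W x ∧ W x ≤ A ∧ ip g W W x ≤ W x * (C * θ * W x ^ 2 + Λ x) := by
  obtain ⟨D, D1, hD⟩ := P210N.prof
  refine ⟨2 * D, by linarith, fun {n X _ g θ L Λ J U V} j h θ0 hP hL => ?_⟩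
  have L1 : ∀ x, Λ x ≤ |L| := fun x => (hL x).trans (le_abs_self L)
  obtain ⟨r, r1, r2, r3⟩ : ∃ r : ℝ, 1 ≤ r ∧ h ≤ r ∧ |L| ≤ θ * r :=
    ⟨max (max 1 h) (|L| / θ), (le_max_left _ _).trans (le_max_left _ _),
      (le_max_right _ _).trans (le_max_left _ _), (div_le_iff₀' θ0).1 (le_max_right _ _)⟩
  have op : IsOpen {x ∈ U j | V j x < 3 * r} := isOpen_iff_mem_nhds.2 fun x hx =>
    inter_mem ((hP.opn j).mem_nhds hx.1) ((hP.sm j x hx.1).continuousAt.eventually (gt_mem_nhds hx.2))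
  refine ⟨3 * r, {x ∈ U j | V j x ≤ 2 * r}ᶜ, {x ∈ U j | V j x < 3 * r}ᶜ, (hP.cl j _).isOpen_compl,
    op.isClosed_compl, compl_subset_compl.2 fun x hx => ⟨hx.1, by linarith [hx.2]⟩,
    fun x hx => ⟨(not_not.1 hx).1, (not_not.1 hx).2.le⟩,
    fun x hx k => by linarith [not_le.1 fun k' => hx ⟨k, k'⟩], by rw [compl_compl]; exact hP.cl j _,
    fun x hx => (not_not.1 hx).1, fun A₀ => ?_⟩
  obtain ⟨Γ, s, g1, g2, g3, g4, g5⟩ := hD r (by linarith) (max A₀ (3 * r)) (le_max_right _ _)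
  refine ⟨_, le_max_left A₀ (3 * r), ?_⟩
  have A1 : 3 * r ≤ max A₀ (3 * r) := le_max_right _ _
  generalize max A₀ (3 * r) = A at *
  obtain ⟨W, e⟩ : ∃ W : X → ℝ, W = fun x => if x ∈ U j then Γ (V j x) else A := ⟨_, rfl⟩
  have e1 : ∀ x ∈ U j, W x = Γ (V j x) := fun x hx => by simp only [e, if_pos hx]
  have e2 : ∀ x ∈ {x ∈ U j | V j x ≤ 2 * r}ᶜ, W x = A := fun x hx => by
    by_cases k : x ∈ U j
    · rw [e1 x k, g2 _ (not_le.1 fun k' => hx ⟨k, k'⟩).le]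
    · simp only [e, if_neg k]
  have v1 : ∀ x ∈ U j, W =ᶠ[𝓝 x] fun y => Γ (V j y) := fun x hx =>
    Eventually.mono ((hP.opn j).mem_nhds hx) e1
  have v2 : ∀ x ∉ U j, W =ᶠ[𝓝 x] fun _ => A := fun x hx =>
    Eventually.mono ((hP.cl j (2 * r)).isOpen_compl.mem_nhds fun k => hx k.1) e2
  refine ⟨W, cd_of_cAt le_rfl fun x => ?_, e2, fun x k => ⟨fun k' => ?_, fun k' => ?_⟩, fun x => ?_⟩
  · by_cases k : x ∈ U j
    · exact (s.contDiffAt.compM (hP.sm j x k)).congr_of_eventuallyEq (v1 x k)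
    · exact cAt_const.congr_of_eventuallyEq (v2 x k)
  · rw [e1 x k, g1 _ (k'.trans r2)]
  · rw [e1 x k]; exact g4 _ (hP.nn j x k) (k'.trans A1)
  have l0 := hP.l0 x
  by_cases k : x ∈ U j
  swap
  · rw [ip_congr (v2 x k) (v2 x k), ip_const_left, (v2 x k).eq_of_nhds]
    have : 0 < A := by linarith
    exact ⟨this.le, le_rfl, by positivity⟩
  have V0 := hP.nn j x k
  have a1 := hP.gr j x k
  rw [e1 x k]
  refine ⟨(g3 _ V0).1, (g3 _ V0).2, ?_⟩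
  rcases lt_or_ge (V j x) r with k' | k'
  · have : W =ᶠ[𝓝 x] V j := by
      filter_upwards [v1 x k, (hP.sm j x k).continuousAt.eventually (gt_mem_nhds k')] with y a b
      rw [a, g1 _ b.le]
    rw [ip_congr this this, g1 _ k'.le]
    refine a1.trans (mul_le_mul_of_nonneg_left ?_ V0)
    nlinarith [mul_nonneg θ0.le (sq_nonneg (V j x))]
  · have d := ((s.differentiable (by simp)) (V j x)).hasDerivAt
    have d' := (hP.sm j x k).differentiableAt (by simp)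
    rw [ip_congr (v1 x k) (v1 x k), ip_comp d d d' d', ← sq]
    have a2 : Λ x ≤ θ * V j x ^ 2 :=
      (L1 x).trans (r3.trans (mul_le_mul_of_nonneg_left (by nlinarith) θ0.le))
    have a3 : ip g (V j) (V j) x ≤ 2 * θ * V j x ^ 3 := by
      nlinarith [mul_le_mul_of_nonneg_left a2 V0]
    have a4 := mul_le_mul_of_nonneg_left a3 (sq_nonneg (deriv Γ (V j x)))
    have a5 := mul_le_mul_of_nonneg_left (g5 _ k') θ0.le
    nlinarith [mul_nonneg (g3 _ V0).1 l0]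

end Vale.Agent.P223O
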