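import Vale.Agent.P223O.Ap
import Vale.Agent.P223O.Gam
import Vale.Agent.P223W.Defs
import Vale.Agent.P210Y.Decay
import Vale.Agent.P210T.TailK

/-!
# P223O: approximate steps at all the sites of one colour
-/

open Filter Topology Set
open scoped ContDiff
open Vale.Agent.P366M Vale.Agent.P366M.Gr Vale.Agent.P366M.Y.C Vale.Agent.P210G Vale.Agent.P210R
open Vale.Agent.P223Y Vale.Agent.P223T Vale.Agent.P223B Vale.Agent.P223F Vale.Agent.P223W

noncomputable section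

namespace Vale.Agent.P223O

/-- where nothing happens -/
theorem Ap_const {n : ℕ} {X : Type} [Mf0 n X] {g₀ g : Fld n X} {v u : Fin n → X → ℝ}
    {W K w : X → ℝ} {q β s ε η : ℝ} {x : X} (ε0 : 0 < ε) (e : w =ᶠ[𝓝 x] fun _ => √ε)
    (eu : ∀ i, u i =ᶠ[𝓝 x] v i) (hK : K x = 0) (hW : W x ^ 2 * ε ≤ η) :
    Ap g₀ g v W K q β s ε η w u x := by
  refine Ap_ev .rfl e (fun _ => .rfl) eu .rfl .rfl ⟨0, le_rfl, ?_⟩
  have l : lw g (fun _ => √ε) = fun _ => 0 := by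
    funext y; simp [lw, ww, ip_const_left]
  have N : nv g (fun _ => √ε) = fun i y => 0 * v i y := by
    funext i y; simp [nv, gr, pd_const]
  have η0 : 0 ≤ η := le_trans (by positivity) hW
  rw [P210U.Rv_of_ev (P210T.gb_const (c := √ε) .rfl) fun _ => .rfl, hv, N, Dv_const_mul]
  simp [H0, hq, P210R.yy, uu, ww, fi, dn, a2, normSq, hess_const, ip_const_left, l, hK, iv, vg,
    pd_const, Real.div_sqrt, mul_pow, Real.sq_sqrt ε0.le, η0]
  exact ⟨by linarith, by positivity⟩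

/-- **FST** -/
theorem fst {n : ℕ} (hn : 2 ≤ n) (hL : LST) : FST n := by
  obtain ⟨C, C1, hG⟩ := gamB
  obtain ⟨β₀, hL⟩ := hL
  refine ⟨C, C1, fun X Γ _ _ _ d F g₀ D K₀ U V ϱ θ Λ A h₀ i₀ hD hK UK KD hϱ dϱ Uϱ Kϱ θ0 hP hA hs a a0
    a1 => ?_⟩
  filter_upwards [eventually_ge_atTop β₀, eventually_gt_atTop 0] with β hβ β0 K h s η e g v rK K0
    sup s0 η0 e0 S up
  have sb := KD.trans interior_subset
  have un : ∀ o ∈ A, ∀ x ∈ D, x ∈ Un Γ A U o → x ∈ U := fun o a x b ⟨γ, p, k⟩ => by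
    rwa [hs.eq (δ := 1) p (sb (UK k)) (by simpa using a) (by simpa using b), inv_one, one_smul] at k
  have spV : ∀ o ∈ A, ∀ x ∈ U, sp A U V o x = V x := fun o a x b =>
    (Sg_on hs (UK.trans sb) (fun o x k => indicator_of_notMem (fun c => k c.2) _)
      (fun o k x => indicator_of_notMem (fun c => k c.1) _) a (sb (UK b))).trans
      (indicator_of_mem (show (o, x) ∈ A ×ˢ U from ⟨a, b⟩) _)
  have sup' : ∀ o ∈ A, ∀ x ∈ D, K o x ≠ 0 → x ∈ U ∧ V x ≤ h := fun o a x b k =>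
    ⟨un o a x b (sup o x k).1, spV o a x (un o a x b (sup o x k).1) ▸ (sup o x k).2⟩
  obtain ⟨h', O, F', oO, cF, FO, nF, hO, -, OU, hW⟩ := hG () h θ0 hP fun _ => le_rfl
  have k3 : ∀ x, ϱ x < 3 → x ∈ K₀ := fun x k => by_contra fun c => by linarith [Kϱ x c]
  obtain ⟨L, hd, L0⟩ := (((S.rg.tr.prod S.rv.tr).unif hD (l := atTop) (P := fun o (L : ℝ) =>
    ∀ x ∈ F' ∩ {x | ϱ x ≤ 2}, ∀ z, Smooth z → ∃ y ∈ O ∩ {x | ϱ x < 3}, z x ≤ z y ∧
      hv (g o) (v o) z y ≤ L) (fun o o' L k H x hx z hz => by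
      obtain ⟨y, y1, y2, y3⟩ := H x hx z hz
      have N : ∀ᶠ p in 𝓝 y, _ := Eventually.mono (mem_interior_iff_mem_nhds.1 (KD (k3 y y1.2))) k
      exact ⟨y, y1, y2, hv_ev (N.mono fun _ => congrArg Prod.fst) .rfl
        (fun i => N.mono fun _ => congrArg fun a : _ × (Fin n → ℝ) => a.2 i) ▸ y3⟩) fun o => by
      obtain ⟨L, -, H⟩ := P210Y.decay0 (S.met o) (S.cc o) (K := F' ∩ {x | ϱ x ≤ 2})
        (O := O ∩ {x | ϱ x < 3}) (hK.of_isClosed_subset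
          (cF.inter (isClosed_le hϱ.cont continuous_const)) fun x k => k3 x (by linarith [k.2.out]))
        (oO.inter (isOpen_lt hϱ.cont continuous_const))
        fun x k => ⟨FO k.1, lt_of_le_of_lt k.2 (by norm_num : (2 : ℝ) < 3)⟩
      exact (eventually_ge_atTop L).mono fun L' k x hx z hz =>
        (H x hx z hz).imp fun y c => ⟨c.1, c.2.1, c.2.2.trans k⟩).and
    (eventually_ge_atTop 0)).exists
  obtain ⟨B, B1, W₀, sW, WO, WU, Wb⟩ := hW ((L + 1 / e) / e + 1 + β ^ 2 / η)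
  have p1 : 0 ≤ (L + 1 / e) / e := by positivity
  have p2 : 0 ≤ β ^ 2 / η := by positivity
  have B2 : L + 1 / e < B * e := by
    rw [← div_lt_iff₀ e0]; linarith
  have B0 : 0 < B := by linarith
  obtain ⟨ε, ε0, ε1, ε2⟩ : ∃ ε > (0 : ℝ), ε * (16 * (B + β + 1) ^ 2) ≤ η ∧ ε ≤ e ^ 2 / 2 :=
    ⟨min (η / _) (e ^ 2 / 2), by positivity,
      (le_div_iff₀ (by positivity)).1 (min_le_left _ _), min_le_right _ _⟩
  have ε3 : B * ε ≤ η ∧ B ^ 2 * ε ≤ η := by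
    have := mul_pos ε0 B0
    have := mul_pos ε0 β0
    constructor <;> nlinarith [mul_pos this B0, mul_pos this β0, mul_pos ‹0 < ε * B› B0]
  have WB : ∀ x ∉ U, W₀ x = B := fun x k => WO x (by_contra fun c => k (OU c))
  choose! w₁ v₁ h1 h2 h3 h4 h5 using fun o (ho : o ∈ A) => hL n X g₀ (g o) (v o) ϱ W₀ (K o) K₀ D
    (1 - a) β B s ε η hn h₀ (S.met o) (S.cc o) hϱ sW (rK.sm o) hK KD (fun x _ => Kϱ x)
    (fun x _ => (P210S.ip_mono h₀ (S.met o) (up o) ϱ x).trans (dϱ x))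
    (fun x => ⟨(Wb x).1, (Wb x).2.1, K0 o x⟩) (fun x b k => ⟨WB x fun c => (Uϱ x c).not_gt k,
      by_contra fun c => (Uϱ x (sup' o ho x b c).1).not_gt k⟩) (by linarith) (by linarith) hβ β0
    s0.le ε0 (by rw [← div_le_iff₀' η0]; linarith) (by linarith)
  have out : ∀ o ∈ A, ∀ x ∈ D, ¬(x ∈ U ∧ V x ≤ h') → w₁ o x ≤ e := fun o ho x b k => by
    have xF : x ∈ F' := by_contra fun c => k (nF x c)
    rcases le_total (ϱ x) 2 with k | k
    · obtain ⟨y, hy, k1, k2⟩ := hd o x ⟨xF, k⟩ _ (h1 o ho)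
      refine k1.trans (not_lt.1 fun k4 => ?_)
      have yD := sb (k3 y hy.2)
      have k5 := ((h5 o ho y yD).2.1 hy.2 (by nlinarith)).trans k2
      rw [H0, P210R.yy, WO y hy.1, show K o y = 0 from by_contra fun c => (hO y hy.1
        (sup' o ho y yD c).1).not_ge (sup' o ho y yD c).2, mul_zero, zero_add, ← mul_div_assoc] at k5
      have u0 : 0 < uu (g o) (w₁ o) y := P210Y.iw_pos (S.met o) _ y
      have u1 : uu (g o) (w₁ o) y ≤ 1 := P210Y.iw_le (S.met o) _ y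
      have b1 : (1 - a) * (1 - uu (g o) (w₁ o) y) / w₁ o y ≤ 1 / e :=
        div_le_div₀ zero_le_one (by nlinarith) e0 k4.le
      have b2 : ε / w₁ o y ≤ w₁ o y := (div_le_iff₀ (h2 o ho y)).2 (by nlinarith)
      linarith [mul_nonneg β0.le (sub_nonneg.2 b2), mul_le_mul_of_nonneg_left k4.le B0.le]
    · exact (abs_le_of_sq_le_sq' (by linarith [(h5 o ho x b).2.2 k]) e0.le).2
  obtain ⟨ρ, lρ, hρ⟩ := ((S.rg.tr.prod S.rv.tr).prod rK.tr).rep hD hA
  let _ : MulAction Γ (ℝ × ℝ × (Fin n → ℝ)) :=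
    { smul := fun _ a => a, one_smul := fun _ => rfl, mul_smul := fun _ _ _ => rfl }
  obtain ⟨σ, c1, c2, c3, c4⟩ := glue d (σ := fun o x => (B, √ε, fun i => v o i x))
    (τ := fun o x => (W₀ x, w₁ (ρ o) x, fun i => v₁ (ρ o) i x))
    (fun γ o x => congrArg (fun a => (B, √ε, a)) (S.rv.inv γ o x))
    (S.rv.tr.map fun _ a => (B, √ε, a)) (tr_lc lρ fun o x => (W₀ x, w₁ o x, fun i => v₁ o i x))
    hA hK KD hs fun o p x b k => Prod.ext (WB x fun c => k (UK c)) (Prod.ext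
      (h4 _ ((hρ o).1.2 p) x k).1 ((funext (h4 _ ((hρ o).1.2 p) x k).2).trans
        (congrArg (fun a => a.1.2) ((hρ o).2 x b))))
  have iσ : Inv Γ σ := c1
  have key : ∀ o x, (x ∉ Un Γ A U o ∧ σ o =ᶠ[𝓝 x] fun x => (B, √ε, fun i => v o i x)) ∨
      ∃ (γ : Γ) (p : F.Ω), γ • o ∈ A ∧ p ∈ A ∧ γ • x ∈ D ∧ ∀ᶠ z in 𝓝 x,
        σ o z = (W₀ (γ • z), w₁ p (γ • z), fun i => v₁ p i (γ • z)) ∧ g o z = g p (γ • z) ∧
          (∀ i, v o i z = v p i (γ • z)) ∧ K o z = K p (γ • z) := fun o x => by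
    by_cases q : x ∈ Un Γ A K₀ o
    · obtain ⟨γ, a, b⟩ := q
      refine .inr ⟨γ⁻¹, ρ (γ⁻¹ • o), a, (hρ _).1.2 a, sb b, (((cont_smul d γ⁻¹).tendsto x).eventually
        (mem_interior_iff_mem_nhds.1 (KD b))).mono fun z k => ?_⟩
      have r := (hρ (γ⁻¹ • o)).2 _ k
      exact ⟨(iσ γ⁻¹ o z).symm.trans (c4 _ a _ k),
        (S.rg.inv γ⁻¹ o z).symm.trans (congrArg (fun a => a.1.1) r).symm,
        fun i => (congrFun (S.rv.inv γ⁻¹ o z) i).symm.trans (congrArg (fun a => a.1.2 i) r).symm,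
        (rK.inv γ⁻¹ o z).symm.trans (congrArg (fun a => a.2) r).symm⟩
    · exact .inl ⟨fun ⟨γ, a, b⟩ => q ⟨γ, a, UK b⟩, mem_of_superset
        ((isClosed_un d hA.isClosed hK o).isOpen_compl.mem_nhds q) (c3 o)⟩
  have tU : ∀ {γ : Γ} {o x}, γ • o ∈ A → γ • x ∈ D → x ∈ Un Γ A U o →
      γ • x ∈ U ∧ sp A U V o x = V (γ • x) := fun {γ o x} a b k =>
    have c := un _ a _ b ((smul_un γ).2 k)
    ⟨c, (inv_Sg _ γ o x).symm.trans (spV _ a _ c)⟩
  refine ⟨h', ε, fun o x => (σ o x).1, fun o x => (σ o x).2.1, fun o i x => (σ o x).2.2 i,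
    ⟨c2.map fun _ a => a.1, fun γ o x => congrArg (·.1) (iσ γ o x)⟩,
    ⟨c2.map fun _ a => a.2.1, fun γ o x => congrArg (·.2.1) (iσ γ o x)⟩,
    ⟨c2.map fun _ a => a.2.2, fun γ o x => congrArg (·.2.2) (iσ γ o x)⟩, fun o =>
    ⟨P210U.sm_loc fun x => ?_, P210U.sm_loc fun x => ?_, P210U.cc_loc fun x => ?_, fun x => ?_,
      fun x => ?_, fun x => ?_, fun x k => ?_, fun x k k' => ?_, ε0, fun x => ?_, fun x => ?_,
      fun x k => ?_⟩⟩
  all_goals rcases key o x with ⟨q, c⟩ | ⟨γ, p, q1, q2, q3, c⟩ <;> beta_reduce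
  · exact ⟨_, cd_const, c.mono fun z k => congrArg (·.1) k⟩
  · exact ⟨_, (d.cm γ).smooth sW, c.mono fun z k => congrArg (·.1) k.1⟩
  · exact ⟨_, cd_const, c.mono fun z k => congrArg (·.2.1) k⟩
  · exact ⟨_, (d.cm γ).smooth (h1 p q2), c.mono fun z k => congrArg (·.2.1) k.1⟩
  · exact ⟨_, S.cc o, fun i => c.mono fun z k => congrArg (·.2.2 i) k⟩
  · exact ⟨_, (d.cm γ).cc le_rfl (h3 p q2), fun i => c.mono fun z k => congrArg (·.2.2 i) k.1⟩
  · rw [c.self_of_nhds]; exact Real.sqrt_pos.2 ε0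
  · rw [c.self_of_nhds.1]; exact h2 p q2 _
  · rw [c.self_of_nhds]; exact B0.le
  · rw [c.self_of_nhds.1]; exact (Wb _).1
  · have k : (fun z => (σ o z).1) =ᶠ[𝓝 x] fun _ => B := c.mono fun z k => congrArg (·.1) k
    have := hP.l0 x
    rw [ip_congr k k, ip_const_left, c.self_of_nhds]
    positivity
  · have k : (fun z => (σ o z).1) =ᶠ[𝓝 x] fun z => W₀ (γ • z) :=
      c.mono fun z k => congrArg (·.1) k.1
    have := congrFun ((d.cm γ).ip g₀ W₀ W₀) x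
    simp only [i₀] at this
    rw [ip_congr k k, this, c.self_of_nhds.1]
    exact (Wb _).2.2
  · exact (q (sup o x k).1).elim
  · obtain ⟨b1, b2⟩ := tU q1 q3 (sup o x k).1
    rw [c.self_of_nhds.1, b2]
    exact (WU _ b1).1 (b2 ▸ (sup o x k).2)
  · exact (q k).elim
  · obtain ⟨b1, b2⟩ := tU q1 q3 k
    rw [c.self_of_nhds.1, b2]
    exact (WU _ b1).2 (b2 ▸ k')
  · rw [c.self_of_nhds]; exact ε3.1
  · rw [c.self_of_nhds.1]
    exact (mul_le_mul_of_nonneg_right (Wb _).2.1 ε0.le).trans ε3.1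
  · exact Ap_const ε0 (c.mono fun z k => congrArg (·.2.1) k)
      (fun i => c.mono fun z k => congrArg (·.2.2 i) k) (by_contra fun k => q (sup o x k).1)
      (by rw [c.self_of_nhds]; exact ε3.2)
  · have := Ap_cm (d.cm γ) (h5 p q2 _ q3).1
    simp only [i₀] at this
    exact Ap_ev (c.mono fun z k => k.2.1) (c.mono fun z k => congrArg (·.2.1) k.1)
      (fun i => c.mono fun z k => k.2.2.1 i) (fun i => c.mono fun z k => congrArg (·.2.2 i) k.1)
      (c.mono fun z k => congrArg (·.1) k.1) (c.mono fun z k => k.2.2.2) this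
  · rw [c.self_of_nhds]
    exact Real.sqrt_le_iff.2 ⟨e0.le, by nlinarith⟩
  · rw [c.self_of_nhds.1]
    refine out p q2 _ q3 fun b => k ?_
    have m : x ∈ Un Γ A U o := (smul_un γ).1 (mem_un q1 b.1)
    exact ⟨m, (tU q1 q3 m).2 ▸ b.2⟩

end Vale.Agent.P223O
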