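import Vale.Agent.P223T.LstD
import Vale.Agent.P223T.Deck
import Vale.Agent.P223B.Sg

/-!
# P223O: the approximate step depends only on germs and is natural
-/

open Filter Topology Set
open scoped ContDiff
open Vale.Agent.P366M Vale.Agent.P366M.Gr Vale.Agent.P366M.Y.C Vale.Agent.P210G Vale.Agent.P210R
open Vale.Agent.P223Y Vale.Agent.P223T Vale.Agent.P223B

noncomputable section

namespace Vale.Agent.P223O

variable {n : ℕ} {X : Type} [Mf0 n X] {g₀ g g' : Fld n X} {v u v' u' : Fin n → X → ℝ}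
  {W W' K K' w w' f f' : X → ℝ} {q β s ε η : ℝ} {x : X}

section Germ

variable (e : g =ᶠ[𝓝 x] g') (e' : w =ᶠ[𝓝 x] w')
include e e'

theorem ww_ev : ww g 1 w =ᶠ[𝓝 x] ww g' 1 w' :=
  (e.and e'.eventuallyEq_nhds).mono fun _ k => ww_of_eq k.1 k.2

theorem lw_ev : lw g w =ᶠ[𝓝 x] lw g' w' := (ww_ev e e').mono fun _ k => congrArg Real.log k

theorem dn_ev (k : f =ᶠ[𝓝 x] f') : dn g w f x = dn g' w' f' x := by
  rw [dn, dn, ip_congr e' k, ip_of_eq e.self_of_nhds, (ww_ev e e').self_of_nhds]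

theorem hv_ev (ev : ∀ i, v i =ᶠ[𝓝 x] v' i) : hv g v w x = hv g' v' w' x := by
  have k : ∀ i, nv g w i =ᶠ[𝓝 x] nv g' w' i := fun i => by
    filter_upwards [e, nv_congr (g := g) e' i] with y a b
    rw [b, nv, nv, gr_of_eq a, ww_of_eq a .rfl]
  simp only [hv, Dv, P210G.ev, dv_of_ev e k, fun i => (k i).self_of_nhds,
    fun i => (ev i).self_of_nhds]

theorem uu_ev : uu g w x = uu g' w' x := by rw [uu, uu, (ww_ev e e').self_of_nhds]

theorem H0_ev (eW : W x = W' x) (eK : K x = K' x) :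
    H0 g W K q β s ε w x = H0 g' W' K' q β s ε w' x := by
  simp only [H0, P210R.yy, uu_ev e e', e'.self_of_nhds, eW, eK]

theorem Ap_ev (ev : ∀ i, v i =ᶠ[𝓝 x] v' i) (eu : ∀ i, u i =ᶠ[𝓝 x] u' i) (eW : W =ᶠ[𝓝 x] W')
    (eK : K =ᶠ[𝓝 x] K') (h : Ap g₀ g' v' W' K' q β s ε η w' u' x) :
    Ap g₀ g v W K q β s ε η w u x := by
  have l := lw_ev e e'
  have G := gb_of_ev e e'
  rw [Ap, P210U.Rv_of_ev e ev, P210U.Rv_of_ev G eu, H0_ev e e' eW.self_of_nhds eK.self_of_nhds,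
    hv_ev e e' ev, dn_ev e e' eW, hq, a2_of_ev e e', ip_congr l l, ip_of_eq G.self_of_nhds,
    dn_ev e e' l, P210R.yy, uu_ev e e', fi, ip_congr eK eK, ip_of_eq e.self_of_nhds, e'.self_of_nhds,
    eW.self_of_nhds, eK.self_of_nhds,
    iv_congr (a := fun i y => u' i y - vg g' v' w' i y) (b := fun i y => u' i y - vg g' v' w' i y)
      (fun i => by simp only [vg, pd_congr l, (ev i).self_of_nhds, (eu i).self_of_nhds])
      fun i => by simp only [vg, pd_congr l, (ev i).self_of_nhds, (eu i).self_of_nhds]]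
  exact h

end Germ

section Nat

variable {Z : Type} [Mf0 n Z] {Φ : Z → X} {z : Z} (h : Cm Φ)
include h

theorem lw_cm (g : Fld n X) (w : X → ℝ) :
    lw (fun z => g (Φ z)) (fun z => w (Φ z)) = fun z => lw g w (Φ z) := by
  funext x
  simp only [lw, ww_cm h]

theorem hv_cm (g : Fld n X) (v : Fin n → X → ℝ) (w : X → ℝ) :
    hv (fun z => g (Φ z)) (fun i z => v i (Φ z)) (fun z => w (Φ z)) = fun z => hv g v w (Φ z) := by
  have k : nv (fun z => g (Φ z)) (fun z => w (Φ z)) = fun i z => nv g w i (Φ z) := by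
    funext i x
    simp only [nv, ww_cm h, h.gr]
  funext x
  simp only [hv, Dv, k, h.dv, P210G.ev]

theorem Ap_cm (k : Ap g₀ g v W K q β s ε η w u (Φ z)) :
    Ap (fun z => g₀ (Φ z)) (fun z => g (Φ z)) (fun i z => v i (Φ z)) (fun z => W (Φ z))
      (fun z => K (Φ z)) q β s ε η (fun z => w (Φ z)) (fun i z => u i (Φ z)) z := by
  simp only [Ap, H0, hq, P210R.yy, uu, fi, dn, vg, iv, h.Rv, gb_cm h, a2_cm h, lw_cm h, ww_cm h, hv_cm h,
    h.ip, h.pd] at k ⊢
  exact k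

end Nat

end Vale.Agent.P223O
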