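import Vale.Agent.P223O.Tail
import Vale.Agent.P223C.Raw
import Vale.Agent.P210F.Step

/-!
# P223O: the sharp gain of one step of the amplification
-/

open Filter Topology Set
open scoped ContDiff
open Vale.Agent.P366M Vale.Agent.P366M.Gr Vale.Agent.P366M.Y.C
open Vale.Agent.P366D (Sec IsoM)
open Vale.Agent.P210G Vale.Agent.P210K Vale.Agent.P210F.Al

noncomputable section

namespace Vale.Agent.P223O

/-- the term with the derivative of the blow-up factor -/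
theorem gainM {τ R y Z s M p q θ : ℝ} (hτ : 0 < τ) (hR : 0 < R) (y0 : 0 < y) (s0 : 0 ≤ s)
    (s1 : s ≤ 1) (hp : 0 ≤ p) (hq : 0 ≤ q) (θ0 : 0 < θ) (hc : 256 * (1 + p) ≤ θ * τ * R)
    (h : M ^ 2 ≤ 8 * R * (1 + p) * s + 8 * R * q * s) :
    -(θ * (τ * y ^ 2) * s + 3 / 8 * ((τ * y ^ 2) ^ 2 * Z ^ 2) + 128 * y ^ 2 * q / R) ≤
      2 * (2 * τ * y ^ 3 / R) * Z * M := by
  obtain ⟨M₁, M₂, rfl, h1, h2⟩ := split (by positivity) (by positivity) h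
  have T0 : 0 < τ * y ^ 2 := by positivity
  have e1 : (2 * τ * y ^ 3 / R) ^ 2 * R = 4 * (τ * y ^ 2) ^ 2 * y ^ 2 / R := by field_simp; ring
  have e2 : (2 * τ * y ^ 3 / R) ^ 2 * R * (τ * R) = 4 * (τ * y ^ 2) ^ 3 := by field_simp; ring
  generalize τ * y ^ 2 = T at *
  generalize 2 * τ * y ^ 3 / R = T' at *
  have b2 : T' ^ 2 * R * (256 * (1 + p)) ≤ θ * (4 * T ^ 3) := by
    rw [← e2]
    calc _ ≤ T' ^ 2 * R * (θ * τ * R) := by gcongr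
      _ = _ := by ring
  have a5 := amgm (u := 2 * T' * Z * M₁) (p := θ * T * s) (q := T ^ 2 * Z ^ 2 / 8)
    (by positivity) (by positivity) (by
      calc (2 * T' * Z * M₁) ^ 2 = 4 * T' ^ 2 * Z ^ 2 * M₁ ^ 2 := by ring
        _ ≤ 4 * T' ^ 2 * Z ^ 2 * (8 * R * (1 + p) * s) := by gcongr
        _ = Z ^ 2 * s / 8 * (T' ^ 2 * R * (256 * (1 + p))) := by ring
        _ ≤ Z ^ 2 * s / 8 * (θ * (4 * T ^ 3)) := by gcongr
        _ = _ := by ring)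
  have b3 : M₂ ^ 2 ≤ 8 * R * q := h2.trans (mul_le_of_le_one_right (by positivity) s1)
  have a6 := amgm (u := 2 * T' * Z * M₂) (p := T ^ 2 * Z ^ 2 / 4) (q := 128 * y ^ 2 * q / R)
    (by positivity) (by positivity) (by
      calc (2 * T' * Z * M₂) ^ 2 = 4 * T' ^ 2 * Z ^ 2 * M₂ ^ 2 := by ring
        _ ≤ 4 * T' ^ 2 * Z ^ 2 * (8 * R * q) := by gcongr
        _ = 32 * Z ^ 2 * q * (T' ^ 2 * R) := by ring
        _ = _ := by rw [e1]; ring)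
  linarith only [a5, a6, neg_abs_le (2 * T' * Z * M₁), neg_abs_le (2 * T' * Z * M₂)]

/-- the gain of one step, with the volume -/
theorem gainO {τ R y r A Z D L s b B P a p q E θ : ℝ} (hτ : 0 < τ) (hR : 0 < R) (hy : 1 ≤ y)
    (r0 : 0 ≤ r) (r1 : r + Z ^ 2 ≤ R) (hA : 0 ≤ A) (s0 : 0 ≤ s) (s1 : s ≤ 1) (hD : s ≤ D)
    (L0 : 0 ≤ L) (hL : 2 * L ≤ D) (hB : 0 ≤ B) (hb : b ^ 2 ≤ B * s)
    (hP : P ^ 2 ≤ 8 * r * (1 + E) * s) (E0 : 0 ≤ E) (hE : E + B ≤ p + q) (hp : 0 ≤ p) (hq : 0 ≤ q)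
    (θ0 : 0 < θ) (θ1 : θ ≤ 1 / 2) (hc : 256 * (1 + p) ≤ θ * τ * R)
    (ha : a ^ 2 ≤ s * (τ * y ^ 2 + A) ^ 3 / 32) (alt : A = 0 ∧ a = 0 ∨ b = 0) :
    (τ * y ^ 2) ^ 2 * Z ^ 2 / 2 + 2 * τ * L - (1 + 2 * θ) * (τ * y ^ 2) * B - 128 * y ^ 2 * q / R ≤
      ((τ * y ^ 2 + A) * Z) ^ 2 + 2 * ((τ * y ^ 2 + A) * (D - b) +
        Z * (2 * τ * y ^ 3 / R * (P + 2 * Z * (D - b)) + a)) := by
  have y0 : 0 < y := by linarith
  have m0 := cs2 (Q := P) (r := r) (e := 8 * (1 + E) * s) (Z := Z) (β := -2 * b) r0 (by positivity)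
    (by linarith)
  have m1 := gainM (Z := Z) hτ hR y0 s0 s1 hp hq θ0 hc (m0.trans (by
    calc _ ≤ R * (8 * (1 + p + q) * s) := mul_le_mul r1 (by
          linarith only [mul_le_mul_of_nonneg_right hE s0, mul_nonneg hB s0, hb])
          (by positivity) hR.le
      _ = _ := by ring))
  have T0 : 0 < τ * y ^ 2 := by positivity
  have T1 : τ ≤ τ * y ^ 2 := le_mul_of_one_le_right hτ.le (one_le_pow₀ hy)
  have T'0 : 0 ≤ 2 * τ * y ^ 3 / R := by positivity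
  generalize τ * y ^ 2 = T at *
  generalize 2 * τ * y ^ 3 / R = T' at *
  generalize 128 * y ^ 2 * q / R = Q at *
  have c2 : (T + A) * (s + 2 * L) ≤ (T + A) * (2 * D) := by gcongr; linarith
  have c3 : 0 ≤ T' * Z ^ 2 * D := by have := s0.trans hD; positivity
  have c4 : T ^ 2 * Z ^ 2 ≤ (T + A) ^ 2 * Z ^ 2 := by gcongr; linarith
  have c5 : τ * L ≤ (T + A) * L := by gcongr; linarith
  have c6 : 0 ≤ T ^ 2 * Z ^ 2 := by positivity
  rcases alt with ⟨rfl, rfl⟩ | rfl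
  · have a2 := amgm (u := 2 * b) (p := (1 - θ) * s) (q := (1 + 2 * θ) * B)
      (mul_nonneg (by linarith) s0) (by positivity) (by
        linarith only [hb,
          mul_nonneg (mul_nonneg hB s0) (mul_nonneg θ0.le (by linarith : 0 ≤ 1 - 2 * θ))])
    linarith only [mul_le_mul_of_nonneg_left ((le_abs_self _).trans a2) T0.le, m1, c2, c3, c5, c6]
  · have a4 := amgm (u := 2 * Z * a) (p := (T + A) * s / 4) (q := (T + A) ^ 2 * Z ^ 2 / 8)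
      (by positivity) (by positivity)
      (by linarith only [mul_le_mul_of_nonneg_left ha (sq_nonneg Z)])
    have c7 : θ * T * s ≤ 1 / 2 * T * s := by gcongr
    have c8 : 0 ≤ (1 + 2 * θ) * T * B := by positivity
    linarith only [a4, neg_abs_le (2 * Z * a), c7, c8, mul_nonneg hA s0, mul_nonneg T0.le s0, m1,
      c2, c3, c4, c5]

variable {n : ℕ} {M : Type} [Mf0 n M] {g : Fld n M} {v : Fin n → M → ℝ} {ρ β A w H : M → ℝ} {x : M}
  {τ R μ : ℝ}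

/-- the normal derivative of the prescribed mean curvature -/
theorem dn_H (hR : 0 < R) (hρ : Smooth ρ) (hβ : Smooth β) (hA : Smooth A) (hw : Smooth w)
    (lt : ρ x + (w x - β x) ^ 2 < R)
    (e : H =ᶠ[𝓝 x] fun y => (τ * xf R (ρ y + (w y - β y) ^ 2) ^ 2 + A y) * (w y - β y)) :
    dn g w H x = (τ * xf R (ρ x + (w x - β x) ^ 2) ^ 2 + A x) * (dn g w w x - dn g w β x) +
      (w x - β x) * (2 * τ * xf R (ρ x + (w x - β x) ^ 2) ^ 3 / R *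
        (dn g w ρ x + 2 * (w x - β x) * (dn g w w x - dn g w β x)) + dn g w A x) := by
  have dZ : DAt (fun y => w y - β y) x := (hw.diff x).sub (hβ.diff x)
  have dρ := (hρ.diff x).add (dZ.pow 2)
  have dx := xf_der τ hR lt
  have dτ : DAt (fun y => τ * xf R (ρ y + (w y - β y) ^ 2) ^ 2) x :=
    DifferentiableAt.comp (g := fun t => τ * xf R t ^ 2) (pt x)
      (by simpa only [loc, symm_pt] using dx.differentiableAt) dρ
  rw [dn_congr .rfl e, dn_mul (dτ.add (hA.diff x)) dZ, dn_add dτ (hA.diff x),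
    dn_comp (v := fun y => ρ y + (w y - β y) ^ 2) dx dρ, dn_add (hρ.diff x) (dZ.pow 2), dn_pow2 dZ,
    dn_sub (hw.diff x) (hβ.diff x)]
  ring

/-- the gain at a point -/
theorem gain_x (hg : Met g) (cv : CC ∞ v) {θ p q B E : ℝ} (hτ : 0 < τ) (hρ : Smooth ρ)
    (hβ : Smooth β) (hA : Smooth A) (hw : Smooth w) (r0 : 0 ≤ ρ x)
    (lt : ρ x + (w x - β x) ^ 2 < R) (A0 : 0 ≤ A x) (hB : ip g β β x ≤ B)
    (hP : ip g ρ ρ x ≤ 8 * ρ x * (1 + E)) (E0 : 0 ≤ E) (hE : E + B ≤ p + q) (hp : 0 ≤ p)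
    (hq : 0 ≤ q) (θ0 : 0 < θ) (θ1 : θ ≤ 1 / 2) (hc : 256 * (1 + p) ≤ θ * τ * R)
    (dA : ip g A A x ≤ (τ + A x) ^ 3 / 32)
    (alt : (A =ᶠ[𝓝 x] fun _ => 0) ∨ β =ᶠ[𝓝 x] fun _ => 0) (e : hv g v w =ᶠ[𝓝 x]
      fun y => (τ * xf R (ρ y + (w y - β y) ^ 2) ^ 2 + A y) * (w y - β y)) :
    Rv g v x + (τ * xf R (ρ x + (w x - β x) ^ 2) ^ 2) ^ 2 * (w x - β x) ^ 2 / 2 +
      2 * τ * lw g w x + a2 g w x - (1 + 2 * θ) * (τ * xf R (ρ x + (w x - β x) ^ 2) ^ 2) * B -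
      128 * xf R (ρ x + (w x - β x) ^ 2) ^ 2 * q / R ≤ Rv (gb g 1 w) (vg g v w) x := by
  have ρ0 := add_nonneg r0 (sq_nonneg (w x - β x))
  have hR : 0 < R := ρ0.trans_lt lt
  have s0 := sg_nonneg hg w x
  have x1 := xf_ge ρ0 lt
  have z : ∀ f : M → ℝ, (f =ᶠ[𝓝 x] fun _ => 0) → dn g w f x = 0 := fun f k => by
    rw [dn_congr .rfl k, dn, ip_const_right, zero_div]
  have key := gainO (a := dn g w A x) hτ hR x1 r0 lt.le A0 s0 (sg_le hg w x) (sg_le_dn hg w x)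
    (Real.log_nonneg (one_le_w hg w x)) (P223C.two_lw_le hg w x) ((hg.ip_nonneg β x).trans hB)
    ((dn_sq hg w β x).trans (mul_le_mul_of_nonneg_right hB s0))
    ((dn_sq hg w ρ x).trans (mul_le_mul_of_nonneg_right hP s0)) E0 hE hp hq θ0 θ1 hc
    ((dn_sq hg w A x).trans (by
      have : (τ + A x) ^ 3 ≤ (τ * xf R (ρ x + (w x - β x) ^ 2) ^ 2 + A x) ^ 3 := by
        gcongr
        nlinarith [one_le_pow₀ x1 (n := 2)]
      nlinarith)) (alt.imp (fun k => ⟨k.self_of_nhds, z _ k⟩) (z _))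
  rw [gid hg cv hw, dn_H hR hρ hβ hA hw lt e, e.self_of_nhds, lw]
  linarith [(met_g hg hw).ip_nonneg (lw g w) x]

/-- the solution of the singular equation near a compact set -/
theorem exD (hn : 2 ≤ n) (hg : Met g) (cv : CC ∞ v) {D : Set M} (hD : IsCompact D) (hτ : 0 < τ)
    (hμ : 0 < μ) (hρ : Smooth ρ) (hβ : Smooth β) (hA : Smooth A) (ρ0 : ∀ x, 0 ≤ ρ x)
    (ρ1 : ∀ x, ρ x ≤ R - μ) (A0 : ∀ x, 0 ≤ A x) : ∃ (w : M → ℝ) (μ' : ℝ), Smooth w ∧ 0 < μ' ∧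
      ∀ x ∈ D, ρ x + (w x - β x) ^ 2 ≤ R - μ' ∧
        hv g v w x = (τ * xf R (ρ x + (w x - β x) ^ 2) ^ 2 + A x) * (w x - β x) := by
  obtain ⟨p⟩ : Nonempty M := inferInstance
  obtain ⟨X, _, _, π, σ, V, a, -, s⟩ := P210L.closeup hg (hD.insert p) isOpen_univ (subset_univ _)
    (insert_nonempty _ _)
  have cv' : CC ∞ (pullC π v) := cv.pull le_rfl s.sm
  obtain ⟨χ, c1, -, c2, -, c4⟩ := exists_cut hD s.opn ((subset_insert _ _).trans a)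
  obtain ⟨w, μ', f, sw, μ0, -, -, -, h⟩ := ex (R := R) hn bg_met cv' hτ hμ
    (P366D.smooth_comp s.sm hρ) (P366D.smooth_comp s.sm hβ) (P366D.smooth_comp s.sm hA)
    (fun x => ρ0 _) (fun x => ρ1 _) fun x => A0 _
  refine ⟨fun x => χ x * w (σ x), μ', sm_cut s.sms c1 c2 sw, μ0, fun y hy => ?_⟩
  have hV := a (.inr hy)
  obtain ⟨h1, h2, -⟩ := h (σ y)
  rw [hv_eq (iso_sec s hV (s.iso y hV)) (v := pullC π v) (fun j => by
    rw [pullC_pullC (s.sm _) (s.sms y hV), pullC_of_id (rt_ev s hV)]) sw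
    ((c4 y hy).mono fun y k => by simp only [k, one_mul]), h2]
  simp only [s.rt y hV, (c4 y hy).self_of_nhds, one_mul] at h1 ⊢
  exact ⟨h1, trivial⟩

end Vale.Agent.P223O
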